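import Vale.Agent.Lib.P147.Nestling

namespace Vale.Agent.Results.P147.NonPositiveDrift

open Vale.Agent.Lib.P147 MeasureTheory

/-- For an iid environment on `ℤ^d` whose local drift in the direction `l` is almost surely
nonpositive, the walk almost surely does not escape in direction `l`: the quenched and the
annealed probabilities of `X_n · l → +∞` are zero. -/
theorem result (d : ℕ) (μ : Measure (Simplex d)) [IsProbabilityMeasure μ] (l : Fin d → ℝ)
    (h : ∀ᵐ p ∂μ, drift p l ≤ 0) :
    (∀ᵐ ω ∂(envLaw μ), ∀ x, quenched ω x (escape l) = 0) ∧ annealed μ 0 (escape l) = 0 :=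
  no_escape_of_drift_nonpos μ l h

end Vale.Agent.Results.P147.NonPositiveDrift
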